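import Vale.Agent.P069.MathlibUsed

namespace Vale.Agent.P069

/-- Closed subspaces of finite codimension. -/
def IsCofinite {X : Type*} [NormedAddCommGroup X] [NormedSpace ℝ X] (F : Submodule ℝ X) : Prop :=
  IsClosed (F : Set X) ∧ FiniteDimensional ℝ (X ⧸ F)

/-- `N` is an equivalent norm on `X`. -/
def IsEquivNorm {X : Type*} [NormedAddCommGroup X] [NormedSpace ℝ X] (N : Seminorm ℝ X) : Prop :=
  ∃ c C : ℝ, 0 < c ∧ 0 < C ∧ ∀ x : X, c * ‖x‖ ≤ N x ∧ N x ≤ C * ‖x‖

/-- The modulus of asymptotic uniform convexity of `N` at `t`, as an extended real number. -/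
noncomputable def aucModulus {X : Type*} [NormedAddCommGroup X] [NormedSpace ℝ X]
    (N : Seminorm ℝ X) (t : ℝ) : EReal :=
  ⨅ x : {x : X // N x = 1}, ⨆ F : {F : Submodule ℝ X // IsCofinite F},
    ⨅ y : {y : X // y ∈ F.1 ∧ N y = 1}, ((N (x.1 + t • y.1) - 1 : ℝ) : EReal)

/-- The modulus of asymptotic midpoint uniform convexity of `N` at `t`. -/
noncomputable def amucModulus {X : Type*} [NormedAddCommGroup X] [NormedSpace ℝ X]
    (N : Seminorm ℝ X) (t : ℝ) : EReal :=
  ⨅ x : {x : X // N x = 1}, ⨆ F : {F : Submodule ℝ X // IsCofinite F},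
    ⨅ y : {y : X // y ∈ F.1 ∧ N y = 1},
      ((max (N (x.1 + t • y.1)) (N (x.1 - t • y.1)) - 1 : ℝ) : EReal)

/-- `N` is asymptotically uniformly convex. -/
def IsAUC {X : Type*} [NormedAddCommGroup X] [NormedSpace ℝ X] (N : Seminorm ℝ X) : Prop :=
  ∀ t : ℝ, 0 < t → 0 < aucModulus N t

/-- `N` is asymptotically midpoint uniformly convex. -/
def IsAMUC {X : Type*} [NormedAddCommGroup X] [NormedSpace ℝ X] (N : Seminorm ℝ X) : Prop :=
  ∀ t : ℝ, 0 < t → 0 < amucModulus N t

/-- `X` has an equivalent asymptotically uniformly convex norm. -/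
def AUCRenormable (X : Type*) [NormedAddCommGroup X] [NormedSpace ℝ X] : Prop :=
  ∃ N : Seminorm ℝ X, IsEquivNorm N ∧ IsAUC N

/-- `X` has an equivalent asymptotically midpoint uniformly convex norm. -/
def AMUCRenormable (X : Type*) [NormedAddCommGroup X] [NormedSpace ℝ X] : Prop :=
  ∃ N : Seminorm ℝ X, IsEquivNorm N ∧ IsAMUC N

/-- `X` is reflexive: the canonical embedding into the bidual is onto. -/
def IsReflexive (X : Type*) [NormedAddCommGroup X] [NormedSpace ℝ X] : Prop :=
  Function.Surjective (NormedSpace.inclusionInDoubleDual ℝ X)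

end Vale.Agent.P069
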