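import Mathlib.Algebra.Order.Archimedean.Real.Hom
import Mathlib.Algebra.Order.Quantale
import Mathlib.Algebra.Order.Ring.Star
import Mathlib.Algebra.Order.Star.Real
import Mathlib.Analysis.InnerProductSpace.Dual
import Mathlib.Analysis.InnerProductSpace.l2Space
import Mathlib.Analysis.Normed.Module.DoubleDual
import Mathlib.LinearAlgebra.Complex.FiniteDimensional
import Mathlib.RingTheory.Flat.TorsionFree
import Mathlib.RingTheory.PicardGroup
import Mathlib.RingTheory.SimpleRing.Principal
import Mathlib.Tactic
import Mathlib.Topology.Algebra.ProperAction.Basic
import Mathlib.Topology.GDelta.MetrizableSpace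

/-! The part of Mathlib that the development of this folder uses. -/
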